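import Mathlib

/-!
P225 (Yau's dimension comparison): definitions for a disproof, helper29.

A Riemannian manifold is presented by one chart: an open set `U` of `ℝ^n` with a smooth field of
positive definite symmetric matrices `g`.  Ricci curvature and Laplacian are the classical coordinate
expressions; the distance is the infimum of lengths of `C^1` paths in `U`.
-/

namespace Vale.Agent.P225

open scoped BigOperators
open Set

noncomputable section

/-- `ℝ^n`. -/
abbrev Pt (n : ℕ) := Fin n → ℝ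

/-- Metric field: the matrix `g_ij` at each point. -/
abbrev MetricField (n : ℕ) := Pt n → Matrix (Fin n) (Fin n) ℝ

variable {n : ℕ}

/-- The partial derivative `∂_i f`. -/
def pd (f : Pt n → ℝ) (i : Fin n) (x : Pt n) : ℝ := fderiv ℝ f x (Pi.single i 1)

/-- Christoffel symbol `Γ^k_ij = ½ g^kl (∂_i g_jl + ∂_j g_il - ∂_l g_ij)`. -/
def christoffel (g : MetricField n) (k i j : Fin n) (x : Pt n) : ℝ :=
  ∑ l, (g x)⁻¹ k l * (pd (fun y => g y j l) i x + pd (fun y => g y i l) j x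
    - pd (fun y => g y i j) l x) / 2

/-- Ricci tensor `R_jl = ∂_i Γ^i_lj - ∂_l Γ^i_ij + Γ^i_ip Γ^p_lj - Γ^i_lp Γ^p_ij` (summed over `i, p`). -/
def ricci (g : MetricField n) (j l : Fin n) (x : Pt n) : ℝ :=
  ∑ i, (pd (christoffel g i l j) i x - pd (christoffel g i i j) l x
    + ∑ p, (christoffel g i i p x * christoffel g p l j x
      - christoffel g i l p x * christoffel g p i j x))

/-- Laplace–Beltrami operator `g^ij (∂_i ∂_j u - Γ^k_ij ∂_k u)`. -/
def laplacian (g : MetricField n) (u : Pt n → ℝ) (x : Pt n) : ℝ :=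
  ∑ i, ∑ j, (g x)⁻¹ i j * (pd (pd u j) i x - ∑ k, christoffel g k i j x * pd u k x)

/-- Length of a path parametrised by `[0,1]`. -/
def pathLength (g : MetricField n) (γ : ℝ → Pt n) : ℝ :=
  ∫ t in (0 : ℝ)..1, Real.sqrt (∑ i, ∑ j, g (γ t) i j * deriv γ t i * deriv γ t j)

/-- Riemannian distance: infimum of lengths of `C^1` paths inside `U`. -/
def dist (U : Set (Pt n)) (g : MetricField n) (x y : Pt n) : ℝ :=
  sInf {L | ∃ γ : ℝ → Pt n, ContDiff ℝ 1 γ ∧ (∀ t ∈ Icc (0 : ℝ) 1, γ t ∈ U) ∧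
    γ 0 = x ∧ γ 1 = y ∧ L = pathLength g γ}

/-- `(U, g)` is a connected complete smooth Riemannian manifold without boundary with `Ric ≥ 0`. -/
structure IsCompleteNonnegRicci (U : Set (Pt n)) (g : MetricField n) : Prop where
  isOpen : IsOpen U
  isConnected : IsConnected U
  smooth : ∀ i j, ContDiffOn ℝ (⊤ : ℕ∞) (fun x => g x i j) U
  posDef : ∀ x ∈ U, (g x).PosDef
  complete : ∀ s : ℕ → Pt n, (∀ m, s m ∈ U) →
    (∀ ε > 0, ∃ N, ∀ a ≥ N, ∀ b ≥ N, dist U g (s a) (s b) < ε) →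
    ∃ x ∈ U, Filter.Tendsto (fun m => dist U g (s m) x) Filter.atTop (nhds 0)
  ricci_nonneg : ∀ x ∈ U, ∀ v : Pt n, 0 ≤ ∑ j, ∑ l, ricci g j l x * v j * v l

/-- Members of `H_d(M,g)`: `C^2` functions with `Δ u = 0` and `|u(x)| ≤ C (1 + dist(o,x))^d`. -/
def IsHarmonicPolyGrowth (U : Set (Pt n)) (g : MetricField n) (o : Pt n) (d : ℕ)
    (u : Pt n → ℝ) : Prop :=
  ContDiffOn ℝ 2 u U ∧ (∀ x ∈ U, laplacian g u x = 0) ∧
    ∃ C : ℝ, ∀ x ∈ U, |u x| ≤ C * (1 + dist U g o x) ^ d

/-- `h_k(ℝ^n, g_E)`. -/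
def euclideanDim (n k : ℕ) : ℕ := (n + k - 1).choose k + (n + k - 2).choose (k - 1)

/-- Yau's comparison fails in dimension `n` for the degree `k`: some `(U,g)` carries more than
`h_k(ℝ^n)` harmonic functions of growth at most `k`, linearly independent as functions on `U`. -/
def YauFailsAt (n k : ℕ) : Prop :=
  ∃ (U : Set (Pt n)) (g : MetricField n) (o : Pt n),
    o ∈ U ∧ IsCompleteNonnegRicci U g ∧
    ∃ u : Fin (euclideanDim n k + 1) → Pt n → ℝ,
      (∀ m, IsHarmonicPolyGrowth U g o k (u m)) ∧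
      LinearIndependent ℝ (fun m => fun x : U => u m x)

end

end Vale.Agent.P225
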