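import Mathlib

/-!
P225, module 13: the linear Perron fixed point (helper29).

Finite block `W`, far block `F`, backward recursion
`w_j = A_j w_{j+1} + B_j f_{j+1}`, `f_j = C_j w_{j+1} + D_j f_{j+1}`.
`ω` is the growth weight, `γ` the gain of the Green operator of `A`, `ν` the weight of the far block.
-/

namespace Vale.Agent.P225

open scoped BoundedContinuousFunction

noncomputable section

variable {E W F : Type*} [NormedAddCommGroup E] [NormedSpace ℝ E]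
  [NormedAddCommGroup W] [NormedSpace ℝ W] [CompleteSpace W]
  [NormedAddCommGroup F] [NormedSpace ℝ F] [CompleteSpace F]

/-- Data and hypotheses of the Perron fixed point. -/
structure PerronData (E W F : Type*) [NormedAddCommGroup E] [NormedSpace ℝ E]
    [NormedAddCommGroup W] [NormedSpace ℝ W] [NormedAddCommGroup F] [NormedSpace ℝ F] where
  A : ℕ → W →L[ℝ] W
  B : ℕ → F →L[ℝ] W
  C : ℕ → W →L[ℝ] F
  D : ℕ → F →L[ℝ] F
  ω : ℕ → ℝ
  γ : ℕ → ℝ
  ν : ℕ → ℝ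
  ω_pos : ∀ j, 0 < ω j
  γ_pos : ∀ j, 0 < γ j
  ν_pos : ∀ j, 0 < ν j
  proj : W →ₗ[ℝ] E
  G0 : E →ₗ[ℝ] ℕ → W
  G1 : (ℕ →ᵇ W) →ₗ[ℝ] ℕ → W
  G0_rec : ∀ e j, G0 e j = A j (G0 e (j + 1))
  G1_rec : ∀ φ j, G1 φ j = A j (G1 φ (j + 1)) + ω j • φ j
  G0_bound : ∀ e j, ‖G0 e j‖ ≤ γ j * ω j * ‖e‖
  G1_bound : ∀ φ j, ‖G1 φ j‖ ≤ γ j * ω j * ‖φ‖
  proj_G0 : ∀ e, proj (G0 e 0) = e
  proj_G1 : ∀ φ, proj (G1 φ 0) = 0
  smallB : ∀ j, ‖B j‖ * (ω (j + 1) * ν (j + 1)) ≤ ω j / 4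
  smallC : ∀ j, ‖C j‖ * (γ (j + 1) * ω (j + 1)) ≤ ω j * ν j / 4
  smallD : ∀ j, ‖D j‖ * (ω (j + 1) * ν (j + 1)) ≤ ω j * ν j / 4

namespace PerronData

variable (P : PerronData E W F)

/-- Normalised unknowns: forcing of the finite block and far block. -/
abbrev Z (W F : Type*) [NormedAddCommGroup W] [NormedAddCommGroup F] :=
  (ℕ →ᵇ W) × (ℕ →ᵇ F)

private theorem fW_bound (z : Z W F) (j : ℕ) :
    ‖(P.ω j)⁻¹ • P.B j ((P.ω (j + 1) * P.ν (j + 1)) • z.2 (j + 1))‖ ≤ 1 / 4 * ‖z‖ := by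
  have hω := P.ω_pos j
  have h1 : 0 < P.ω (j + 1) * P.ν (j + 1) := mul_pos (P.ω_pos _) (P.ν_pos _)
  have hz : ‖z.2 (j + 1)‖ ≤ ‖z‖ := (z.2.norm_coe_le_norm _).trans (le_max_right _ _)
  rw [map_smul, smul_smul, norm_smul, Real.norm_eq_abs, abs_of_pos (by positivity)]
  calc (P.ω j)⁻¹ * (P.ω (j + 1) * P.ν (j + 1)) * ‖P.B j (z.2 (j + 1))‖
      ≤ (P.ω j)⁻¹ * (P.ω (j + 1) * P.ν (j + 1)) * (‖P.B j‖ * ‖z‖) := by
        gcongr
        exact ((P.B j).le_opNorm _).trans (by gcongr)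
    _ = (P.ω j)⁻¹ * (‖P.B j‖ * (P.ω (j + 1) * P.ν (j + 1))) * ‖z‖ := by ring
    _ ≤ (P.ω j)⁻¹ * (P.ω j / 4) * ‖z‖ := by gcongr; exact P.smallB j
    _ = 1 / 4 * ‖z‖ := by field_simp

private theorem C_bound {v : ℕ → W} {c : ℝ} (hc : 0 ≤ c)
    (hv : ∀ j, ‖v j‖ ≤ P.γ j * P.ω j * c) (j : ℕ) :
    ‖(P.ω j * P.ν j)⁻¹ • P.C j (v (j + 1))‖ ≤ 1 / 4 * c := by
  have h1 : 0 < P.ω j * P.ν j := mul_pos (P.ω_pos _) (P.ν_pos _)
  rw [norm_smul, Real.norm_eq_abs, abs_of_pos (by positivity)]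
  calc (P.ω j * P.ν j)⁻¹ * ‖P.C j (v (j + 1))‖
      ≤ (P.ω j * P.ν j)⁻¹ * (‖P.C j‖ * (P.γ (j + 1) * P.ω (j + 1) * c)) := by
        gcongr
        exact ((P.C j).le_opNorm _).trans (by gcongr; exact hv (j + 1))
    _ = (P.ω j * P.ν j)⁻¹ * (‖P.C j‖ * (P.γ (j + 1) * P.ω (j + 1))) * c := by ring
    _ ≤ (P.ω j * P.ν j)⁻¹ * (P.ω j * P.ν j / 4) * c := by gcongr; exact P.smallC j
    _ = 1 / 4 * c := by
        generalize hx : P.ω j * P.ν j = x at h1 ⊢
        field_simp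

private theorem D_bound (z : Z W F) (j : ℕ) :
    ‖(P.ω j * P.ν j)⁻¹ • P.D j ((P.ω (j + 1) * P.ν (j + 1)) • z.2 (j + 1))‖ ≤ 1 / 4 * ‖z‖ := by
  have h0 : 0 < P.ω j * P.ν j := mul_pos (P.ω_pos _) (P.ν_pos _)
  have h1 : 0 < P.ω (j + 1) * P.ν (j + 1) := mul_pos (P.ω_pos _) (P.ν_pos _)
  have hz : ‖z.2 (j + 1)‖ ≤ ‖z‖ := (z.2.norm_coe_le_norm _).trans (le_max_right _ _)
  rw [map_smul, smul_smul, norm_smul, Real.norm_eq_abs, abs_of_pos (by positivity)]
  calc (P.ω j * P.ν j)⁻¹ * (P.ω (j + 1) * P.ν (j + 1)) * ‖P.D j (z.2 (j + 1))‖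
      ≤ (P.ω j * P.ν j)⁻¹ * (P.ω (j + 1) * P.ν (j + 1)) * (‖P.D j‖ * ‖z‖) := by
        gcongr
        exact ((P.D j).le_opNorm _).trans (by gcongr)
    _ = (P.ω j * P.ν j)⁻¹ * (‖P.D j‖ * (P.ω (j + 1) * P.ν (j + 1))) * ‖z‖ := by ring
    _ ≤ (P.ω j * P.ν j)⁻¹ * (P.ω j * P.ν j / 4) * ‖z‖ := by gcongr; exact P.smallD j
    _ = 1 / 4 * ‖z‖ := by
        generalize hx : P.ω j * P.ν j = x at h0 ⊢
        field_simp

private theorem fF_bound (z : Z W F) (j : ℕ) :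
    ‖(P.ω j * P.ν j)⁻¹ • (P.C j (P.G1 z.1 (j + 1))
      + P.D j ((P.ω (j + 1) * P.ν (j + 1)) • z.2 (j + 1)))‖ ≤ 1 / 2 * ‖z‖ := by
  rw [smul_add]
  refine (norm_add_le _ _).trans ?_
  have h1 := P.C_bound (norm_nonneg z) (v := P.G1 z.1) (fun i => (P.G1_bound z.1 i).trans (by
    have := mul_pos (P.γ_pos i) (P.ω_pos i)
    gcongr; exact le_max_left _ _)) j
  have h2 := P.D_bound z j
  linarith

/-- The linear part of the fixed-point map. -/
def K : Z W F →L[ℝ] Z W F :=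
  LinearMap.mkContinuous
    { toFun := fun z =>
        (BoundedContinuousFunction.ofNormedAddCommGroup
          (fun j => (P.ω j)⁻¹ • P.B j ((P.ω (j + 1) * P.ν (j + 1)) • z.2 (j + 1)))
          continuous_of_discreteTopology (1 / 4 * ‖z‖) (P.fW_bound z),
        BoundedContinuousFunction.ofNormedAddCommGroup
          (fun j => (P.ω j * P.ν j)⁻¹ • (P.C j (P.G1 z.1 (j + 1))
            + P.D j ((P.ω (j + 1) * P.ν (j + 1)) • z.2 (j + 1))))
          continuous_of_discreteTopology (1 / 2 * ‖z‖) (P.fF_bound z))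
      map_add' := fun z z' => by
        refine Prod.ext ?_ ?_ <;> ext j <;> simp <;> module
      map_smul' := fun r z => by
        refine Prod.ext ?_ ?_ <;> ext j <;> simp <;> module }
    (1 / 2) fun z => by
      refine max_le ?_ ?_
      · refine (BoundedContinuousFunction.norm_le (by positivity)).2 fun j => ?_
        refine (P.fW_bound z j).trans ?_
        have := norm_nonneg z
        linarith
      · exact (BoundedContinuousFunction.norm_le (by positivity)).2 fun j => P.fF_bound z j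

/-- The inhomogeneous term. -/
def inhom : E →ₗ[ℝ] Z W F where
  toFun e := (0, BoundedContinuousFunction.ofNormedAddCommGroup
    (fun j => (P.ω j * P.ν j)⁻¹ • P.C j (P.G0 e (j + 1))) continuous_of_discreteTopology
    (1 / 4 * ‖e‖) (fun j => P.C_bound (norm_nonneg e) (P.G0_bound e) j))
  map_add' e e' := by
    refine Prod.ext ?_ ?_
    · simp
    · ext j; simp
  map_smul' r e := by
    refine Prod.ext ?_ ?_
    · simp
    · ext j; simp; module

/-- The fixed point. -/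
def fix (e : E) : Z W F := Ring.inverse (1 - P.K) (P.inhom e)

theorem K_norm : ‖P.K‖ < 1 :=
  lt_of_le_of_lt (LinearMap.mkContinuous_norm_le _ (by norm_num) _) (by norm_num)

theorem fix_eq (e : E) : P.fix e = P.K (P.fix e) + P.inhom e := by
  have h : IsUnit (1 - P.K) := ⟨Units.oneSub P.K P.K_norm, rfl⟩
  have := congrArg (fun L : Z W F →L[ℝ] Z W F => L (P.inhom e)) (Ring.mul_inverse_cancel _ h)
  simp only [mul_apply, one_apply_eq_self, sub_apply] at this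
  change P.fix e - P.K (P.fix e) = P.inhom e at this
  rw [← this]; abel

theorem fix_norm (e : E) : ‖P.fix e‖ ≤ ‖e‖ / 2 := by
  have h1 : ‖P.K (P.fix e)‖ ≤ 1 / 2 * ‖P.fix e‖ := by
    refine (P.K.le_opNorm _).trans ?_
    gcongr
    exact LinearMap.mkContinuous_norm_le _ (by norm_num) _
  have h2 : ‖P.inhom e‖ ≤ 1 / 4 * ‖e‖ := by
    refine max_le (by simp [inhom]) ?_
    exact (BoundedContinuousFunction.norm_le (by positivity)).2
      fun j => P.C_bound (norm_nonneg e) (P.G0_bound e) j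
  have h3 := congrArg norm (P.fix_eq e)
  have h4 := norm_add_le (P.K (P.fix e)) (P.inhom e)
  linarith

/-- The solutions: linear in the parameter, solving both recursions, with the weighted bounds and
with initial projection equal to the parameter (hence injective). -/
theorem perron : ∃ L : E →ₗ[ℝ] (ℕ → W) × (ℕ → F),
    (∀ e j, (L e).1 j = P.A j ((L e).1 (j + 1)) + P.B j ((L e).2 (j + 1))) ∧
    (∀ e j, (L e).2 j = P.C j ((L e).1 (j + 1)) + P.D j ((L e).2 (j + 1))) ∧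
    (∀ e j, ‖(L e).1 j‖ ≤ 2 * (P.γ j * P.ω j) * ‖e‖) ∧
    (∀ e j, ‖(L e).2 j‖ ≤ P.ω j * P.ν j * ‖e‖) ∧
    (∀ e, P.proj ((L e).1 0) = e) := by
  let fixL : E →ₗ[ℝ] Z W F := (Ring.inverse (1 - P.K)).toLinearMap.comp P.inhom
  refine ⟨{ toFun := fun e => (P.G0 e + P.G1 (fixL e).1,
              fun j => (P.ω j * P.ν j) • (fixL e).2 j)
            map_add' := fun e e' => ?_
            map_smul' := fun r e => ?_ }, ?_, ?_, ?_, ?_, ?_⟩
  · refine Prod.ext ?_ ?_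
    · simp; abel
    · funext j; simp
  · refine Prod.ext ?_ ?_
    · simp
    · funext j; simp [smul_smul]; module
  all_goals intro e
  · intro j
    change P.G0 e j + P.G1 (P.fix e).1 j = P.A j (P.G0 e (j + 1) + P.G1 (P.fix e).1 (j + 1))
      + P.B j ((P.ω (j + 1) * P.ν (j + 1)) • (P.fix e).2 (j + 1))
    have h := congrArg (fun z : Z W F => z.1 j) (P.fix_eq e)
    have h' : (P.fix e).1 j
        = (P.ω j)⁻¹ • P.B j ((P.ω (j + 1) * P.ν (j + 1)) • (P.fix e).2 (j + 1)) := by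
      simpa [K, inhom] using h
    rw [P.G0_rec e j, P.G1_rec (P.fix e).1 j, h', smul_smul,
      mul_inv_cancel₀ (P.ω_pos j).ne', one_smul, (P.A j).map_add]
    abel
  · intro j
    change (P.ω j * P.ν j) • (P.fix e).2 j = P.C j (P.G0 e (j + 1) + P.G1 (P.fix e).1 (j + 1))
      + P.D j ((P.ω (j + 1) * P.ν (j + 1)) • (P.fix e).2 (j + 1))
    have h := congrArg (fun z : Z W F => z.2 j) (P.fix_eq e)
    have h' : (P.fix e).2 j = (P.ω j * P.ν j)⁻¹ • (P.C j (P.G1 (P.fix e).1 (j + 1))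
        + P.D j ((P.ω (j + 1) * P.ν (j + 1)) • (P.fix e).2 (j + 1)))
        + (P.ω j * P.ν j)⁻¹ • P.C j (P.G0 e (j + 1)) := by
      simpa [K, inhom] using h
    rw [h', smul_add, smul_smul, smul_smul,
      mul_inv_cancel₀ (mul_pos (P.ω_pos j) (P.ν_pos j)).ne', one_smul, one_smul, (P.C j).map_add]
    abel
  · intro j
    change ‖P.G0 e j + P.G1 (P.fix e).1 j‖ ≤ _
    have := mul_pos (P.γ_pos j) (P.ω_pos j)
    have h1 : ‖(P.fix e).1‖ ≤ ‖e‖ := by
      have := (le_max_left ‖(P.fix e).1‖ ‖(P.fix e).2‖).trans (P.fix_norm e)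
      linarith [norm_nonneg e]
    calc ‖P.G0 e j + P.G1 (P.fix e).1 j‖ ≤ ‖P.G0 e j‖ + ‖P.G1 (P.fix e).1 j‖ := norm_add_le _ _
      _ ≤ P.γ j * P.ω j * ‖e‖ + P.γ j * P.ω j * ‖e‖ :=
          add_le_add (P.G0_bound e j) ((P.G1_bound _ j).trans (by gcongr))
      _ = 2 * (P.γ j * P.ω j) * ‖e‖ := by ring
  · intro j
    change ‖(P.ω j * P.ν j) • (P.fix e).2 j‖ ≤ _
    have h0 := mul_pos (P.ω_pos j) (P.ν_pos j)
    rw [norm_smul, Real.norm_eq_abs, abs_of_pos h0]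
    gcongr
    have := (((P.fix e).2.norm_coe_le_norm j).trans (le_max_right ‖(P.fix e).1‖ _)).trans
      (P.fix_norm e)
    linarith [norm_nonneg e]
  · change P.proj (P.G0 e 0 + P.G1 (P.fix e).1 0) = e
    rw [map_add, P.proj_G0, P.proj_G1, add_zero]

end PerronData

end

end Vale.Agent.P225
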