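import Vale.Agent.P225.Space

/-!
P225 shared (helper29): weights `w` of the invariant metrics used on the end.

`-Δ` acts on the block `V = (a,b,c)` as `Blk.lam w V = w₀ c_a + w₁ c_b + w₂ c_c`; the inverse Gram matrix is
`[[w₀+w₂, w₂],[w₂, w₁+w₂]]` with determinant `wdet w`, and `det Q = 1 / wdet w`.
-/

namespace Vale.Agent.P225

noncomputable section

/-- `w₀w₁ + w₀w₂ + w₁w₂`. -/
def wdet (w : Fin 3 → ℝ) : ℝ := w 0 * w 1 + w 0 * w 2 + w 1 * w 2

/-- Rescale raw weights so that `det Q = d`. -/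
def wNorm (d : ℝ) (w : Fin 3 → ℝ) : Fin 3 → ℝ :=
  fun i => w i * Real.sqrt (1 / (d * wdet w))

/-- Raw excursion weights from the junction `J3` in direction `x` (`x = 1` is nearly Kähler). -/
def rawExc (x : ℝ) : Fin 3 → ℝ := ![1, 1, x]

/-- Raw transit from `J3` (at `x ≤ 1/4`) through nearly Kähler (`x = 1/2`) to `J1` (at `x ≥ 3/4`).
The constant margins make adjacent pieces agree on open intervals. -/
def rawTransit (x : ℝ) : Fin 3 → ℝ :=
  ![1 - Real.smoothTransition (4 * x - 2), 1, Real.smoothTransition (4 * x - 1)]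

/-- Cyclic relabelling: `rotW n w` puts the junction `J3` pattern at junction `n`
(`n = 0`: `J3`, `1`: `J1`, `2`: `J2`, as in `Blk.level`). -/
def rotW (n : Fin 3) (w : Fin 3 → ℝ) : Fin 3 → ℝ := fun i => w (i - n)

/-- Lower bound for `det Q` along the end: the count uses it. -/
def dMin : ℝ := 122 / 1000

/-- Upper bound for `det Q` along the end: the Ricci margin uses it. -/
def dMax : ℝ := 1229 / 10000

/-- Smooth bump, positive exactly on `(1/4,3/4)`; used as time profile. -/
def bump (x : ℝ) : ℝ :=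
  Real.smoothTransition (6 * x - 3 / 2) * Real.smoothTransition (9 / 2 - 6 * x)

theorem bump_zero_of_le {x : ℝ} (h : x ≤ 1 / 4) : bump x = 0 := by
  simp [bump, Real.smoothTransition.zero_of_nonpos (by linarith : 6 * x - 3 / 2 ≤ 0)]

theorem bump_zero_of_ge {x : ℝ} (h : 3 / 4 ≤ x) : bump x = 0 := by
  simp [bump, Real.smoothTransition.zero_of_nonpos (by linarith : 9 / 2 - 6 * x ≤ 0)]

theorem rawTransit_left {x : ℝ} (h : x ≤ 1 / 4) : rawTransit x = rawExc 0 := by
  simp [rawTransit, rawExc, Real.smoothTransition.zero_of_nonpos (by linarith : 4 * x - 2 ≤ 0),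
    Real.smoothTransition.zero_of_nonpos (by linarith : 4 * x - 1 ≤ 0)]

theorem rawTransit_right {x : ℝ} (h : 3 / 4 ≤ x) : rawTransit x = rotW 1 (rawExc 0) := by
  funext i
  fin_cases i <;>
    simp [rawTransit, rawExc, rotW, Real.smoothTransition.one_of_one_le (by linarith : 1 ≤ 4 * x - 2),
      Real.smoothTransition.one_of_one_le (by linarith : 1 ≤ 4 * x - 1)]

theorem lam_wNorm (d : ℝ) (w : Fin 3 → ℝ) (V : Blk) :
    Blk.lam (wNorm d w) V = Real.sqrt (1 / (d * wdet w)) * Blk.lam w V := by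
  simp [Blk.lam, wNorm]; ring

theorem wdet_rotW (n : Fin 3) (w : Fin 3 → ℝ) : wdet (rotW n w) = wdet w := by
  have h1 : (-1 : Fin 3) = 2 := rfl
  have h2 : (-2 : Fin 3) = 1 := rfl
  fin_cases n <;> simp [wdet, rotW, h1, h2] <;> ring

end

end Vale.Agent.P225
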