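import Mathlib
import Vale.Agent.P225.Seg.Basic

/-!
P225 shared state space (helper29): labels `V = (a,b,c)`, the global index `St`, junction levels,
the Hilbert space `HSp = ℓ²(St)` of (weighted) coefficients and diagonal operators on it.

A coefficient vector `x : HSp` stands for the function `∑ i, x i / (mu i)^s • Y i` on `S³ × S³`.
-/

namespace Vale.Agent.P225

open scoped lp ENNReal

noncomputable section

/-- Triangle condition with even perimeter. -/
def Tri (a b c : ℕ) : Prop := (a + b + c) % 2 = 0 ∧ a ≤ b + c ∧ b ≤ a + c ∧ c ≤ a + b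

/-- Spin labels `(a,b,c)`: one irreducible block of functions on `SU(2)³/Δ`. -/
def Blk : Type := {V : ℕ × ℕ × ℕ // Tri V.1 V.2.1 V.2.2}

namespace Blk

/-- First label. -/
def la (V : Blk) : ℕ := V.1.1
/-- Second label. -/
def lb (V : Blk) : ℕ := V.1.2.1
/-- Third label. -/
def lc (V : Blk) : ℕ := V.1.2.2

/-- Dimension of a block. -/
def dim (V : Blk) : ℕ := (V.la + 1) * (V.lb + 1) * (V.lc + 1)

/-- The pair of labels seen at junction `J` (`0` is `J3`, `1` is `J1`, `2` is `J2`). -/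
def level (J : Fin 3) (V : Blk) : ℕ × ℕ :=
  ![(V.la, V.lb), (V.lb, V.lc), (V.lc, V.la)] J

/-- Weight `1 + a + b + c`. -/
def mu (V : Blk) : ℝ := 1 + V.la + V.lb + V.lc

/-- Casimir value `x (x + 2)`. -/
def cas (x : ℕ) : ℝ := x * (x + 2)

/-- Eigenvalue of `-Δ` of the invariant metric with weights `w` on the block `V`. -/
def lam (w : Fin 3 → ℝ) (V : Blk) : ℝ :=
  w 0 * cas V.la + w 1 * cas V.lb + w 2 * cas V.lc

theorem one_le_mu (V : Blk) : 1 ≤ V.mu := by
  unfold mu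
  have h1 : (0 : ℝ) ≤ V.la := Nat.cast_nonneg _
  have h2 : (0 : ℝ) ≤ V.lb := Nat.cast_nonneg _
  have h3 : (0 : ℝ) ≤ V.lc := Nat.cast_nonneg _
  linarith

/-- `mu` is comparable to `1 + p + q` for the pair `(p,q)` seen at any junction. -/
theorem mu_le_level (J : Fin 3) (V : Blk) :
    V.mu ≤ 2 * (1 + ((V.level J).1 : ℝ) + (V.level J).2) := by
  obtain ⟨-, h1, h2, h3⟩ := V.2
  have h1' : (V.la : ℝ) ≤ V.lb + V.lc := by exact_mod_cast h1
  have h2' : (V.lb : ℝ) ≤ V.la + V.lc := by exact_mod_cast h2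
  have h3' : (V.lc : ℝ) ≤ V.la + V.lb := by exact_mod_cast h3
  have ha : (0 : ℝ) ≤ V.la := Nat.cast_nonneg _
  have hb : (0 : ℝ) ≤ V.lb := Nat.cast_nonneg _
  have hc : (0 : ℝ) ≤ V.lc := Nat.cast_nonneg _
  fin_cases J <;> simp [mu, level] <;> linarith

end Blk

/-- Global index of the orthonormal basis of functions on `S³ × S³`. -/
abbrev St : Type := Σ V : Blk, Fin V.dim

/-- Block of a state. -/
abbrev St.blk (i : St) : Blk := i.1

/-- The state space. -/
abbrev HSp : Type := lp (fun _ : St => ℝ) 2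

theorem memℓp_mul {ι : Type*} {g : ι → ℝ} {K : ℝ} (hg : ∀ i, |g i| ≤ K)
    (x : lp (fun _ : ι => ℝ) 2) : Memℓp (fun i => g i * x i) 2 := by
  have hx := (lp.memℓp x).const_smul K
  refine hx.mono' fun i => ?_
  simp only [Pi.smul_apply, smul_eq_mul, norm_mul, Real.norm_eq_abs]
  exact mul_le_mul_of_nonneg_right ((hg i).trans (le_abs_self K)) (abs_nonneg _)

/-- Diagonal operator with bounded symbol. -/
def diagOp (g : St → ℝ) (K : ℝ) (hK : 0 ≤ K) (hg : ∀ i, |g i| ≤ K) : HSp →L[ℝ] HSp :=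
  LinearMap.mkContinuous
    { toFun := fun x => ⟨fun i => g i * x i, memℓp_mul hg x⟩
      map_add' := fun x y => by ext i; show g i * (x + y) i = _; simp [mul_add]; rfl
      map_smul' := fun r x => by ext i; show g i * (r • x) i = _; simp [mul_left_comm] }
    K fun x => by
      refine lp.norm_le_of_forall_sum_le (by norm_num) (mul_nonneg hK (norm_nonneg x)) fun s => ?_
      have hs : ∑ i ∈ s, ‖x i‖ ^ (2 : ℝ≥0∞).toReal ≤ ‖x‖ ^ (2 : ℝ≥0∞).toReal :=
        lp.sum_rpow_le_norm_rpow (by norm_num) x s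
      calc ∑ i ∈ s, ‖g i * x i‖ ^ (2 : ℝ≥0∞).toReal
          ≤ ∑ i ∈ s, K ^ (2 : ℝ≥0∞).toReal * ‖x i‖ ^ (2 : ℝ≥0∞).toReal := by
            refine Finset.sum_le_sum fun i _ => ?_
            rw [norm_mul, Real.mul_rpow (norm_nonneg _) (norm_nonneg _)]
            gcongr
            exact hg i
        _ = K ^ (2 : ℝ≥0∞).toReal * ∑ i ∈ s, ‖x i‖ ^ (2 : ℝ≥0∞).toReal := by
            rw [Finset.mul_sum]
        _ ≤ K ^ (2 : ℝ≥0∞).toReal * ‖x‖ ^ (2 : ℝ≥0∞).toReal := by gcongr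
        _ = (K * ‖x‖) ^ (2 : ℝ≥0∞).toReal := by rw [Real.mul_rpow hK (norm_nonneg _)]

@[simp] theorem diagOp_apply (g : St → ℝ) (K : ℝ) (hK : 0 ≤ K) (hg : ∀ i, |g i| ≤ K)
    (x : HSp) (i : St) : diagOp g K hK hg x i = g i * x i := rfl

theorem norm_diagOp_le (g : St → ℝ) (K : ℝ) (hK : 0 ≤ K) (hg : ∀ i, |g i| ≤ K) :
    ‖diagOp g K hK hg‖ ≤ K :=
  LinearMap.mkContinuous_norm_le _ hK _

/-- An operator is level-local at junction `J` if it commutes with every bounded function of the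
level. -/
def LevelLocal (J : Fin 3) (T : HSp →L[ℝ] HSp) : Prop :=
  ∀ (f : ℕ × ℕ → ℝ) (K : ℝ) (hK : 0 ≤ K) (hf : ∀ i : St, |f (i.blk.level J)| ≤ K),
    T.comp (diagOp (fun i => f (i.blk.level J)) K hK hf)
      = (diagOp (fun i => f (i.blk.level J)) K hK hf).comp T

/-- An operator is diagonal in the blocks (transits). -/
def BlkScalar (T : HSp →L[ℝ] HSp) : Prop :=
  ∃ g : Blk → ℝ, ∀ x i, T x i = g i.blk * x i

end

end Vale.Agent.P225
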